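import Mathlib
import Vale.Agent.Lib.P248.helper37.Q2Defs

/-!
P248 pool (helper56 copy): the cone inequality for compact convex subsets of the positive orthant

`M` compact convex in the closed positive orthant of `Fin (n + 1) → ℝ`, `y ∈ M`.  Then
`∑ i, y i * |sec M i| ≤ (n + 1) * |M|`.  The cones with apex `y` over the coordinate sections
lie in `M`, have volume at least `y i / (n + 1) * |sec M i|`, and two of them meet inside a
hyperplane.
-/

open MeasureTheory Set

namespace Vale.Agent.Lib.P248.H56Q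

open Vale.Agent.Lib.P248.H37 Vale.Agent.Lib.P248.H37Q

/-- The cone with apex `y` over the `i`-th coordinate section of `M`. -/
def coneSet {n : ℕ} (M : Set (Fin (n + 1) → ℝ)) (y : Fin (n + 1) → ℝ) (i : Fin (n + 1)) :
    Set (Fin (n + 1) → ℝ) :=
  (fun q : ℝ × (Fin n → ℝ) =>
      (1 - q.1) • y + q.1 • (Fin.insertNth i (0 : ℝ) q.2 : Fin (n + 1) → ℝ)) ''
    (Icc (0 : ℝ) 1 ×ˢ sec M i)

theorem isCompact_sec {n : ℕ} {M : Set (Fin (n + 1) → ℝ)} (hcomp : IsCompact M)
    (i : Fin (n + 1)) : IsCompact (sec M i) := by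
  have h : sec M i = (fun p : Fin (n + 1) → ℝ => (fun j : Fin n => p (i.succAbove j))) ''
      (M ∩ {p | p i = 0}) := by
    ext w
    constructor
    · intro hw
      refine ⟨Fin.insertNth i (0 : ℝ) w, ⟨hw, ins_same i 0 w⟩, ?_⟩
      funext j
      exact ins_succ i 0 w j
    · rintro ⟨p, ⟨hp, hp0⟩, rfl⟩
      show (Fin.insertNth i (0 : ℝ) (fun j : Fin n => p (i.succAbove j)) : Fin (n + 1) → ℝ) ∈ M
      have hall : ∀ k, (Fin.insertNth i (0 : ℝ) (fun j : Fin n => p (i.succAbove j)) :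
          Fin (n + 1) → ℝ) k = p k := by
        rw [i.forall_iff_succAbove]
        refine ⟨?_, fun j => ?_⟩
        · rw [ins_same]
          exact hp0.symm
        · rw [ins_succ]
      rw [funext hall]
      exact hp
  rw [h]
  apply IsCompact.image
  · exact hcomp.inter_right (isClosed_eq (continuous_apply i) continuous_const)
  · exact continuous_pi (fun j => continuous_apply _)

theorem isCompact_coneSet {n : ℕ} {M : Set (Fin (n + 1) → ℝ)} (hcomp : IsCompact M)
    (y : Fin (n + 1) → ℝ) (i : Fin (n + 1)) : IsCompact (coneSet M y i) := by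
  unfold coneSet
  apply IsCompact.image (isCompact_Icc.prod (isCompact_sec hcomp i))
  exact ((continuous_const.sub continuous_fst).smul continuous_const).add
    (continuous_fst.smul ((continuous_ins i).comp continuous_snd))

theorem coneSet_subset {n : ℕ} {M : Set (Fin (n + 1) → ℝ)} (hconv : Convex ℝ M)
    {y : Fin (n + 1) → ℝ} (hy : y ∈ M) (i : Fin (n + 1)) : coneSet M y i ⊆ M := by
  rintro _ ⟨⟨t, w⟩, ⟨⟨ht0, ht1⟩, hw⟩, rfl⟩
  show (1 - t) • y + t • (Fin.insertNth i (0 : ℝ) w : Fin (n + 1) → ℝ) ∈ M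
  exact hconv hy hw (by linarith) ht0 (by ring)

theorem coneSet_coords {n : ℕ} {M : Set (Fin (n + 1) → ℝ)} (hnn : ∀ p ∈ M, ∀ i, 0 ≤ p i)
    {y : Fin (n + 1) → ℝ} {i : Fin (n + 1)} {p : Fin (n + 1) → ℝ} (hp : p ∈ coneSet M y i) :
    ∃ t : ℝ, p i = (1 - t) * y i ∧ ∀ k, (1 - t) * y k ≤ p k := by
  obtain ⟨⟨t, w⟩, ⟨⟨ht0, ht1⟩, hw⟩, rfl⟩ := hp
  refine ⟨t, ?_, fun k => ?_⟩
  · show ((1 - t) • y + t • (Fin.insertNth i (0 : ℝ) w : Fin (n + 1) → ℝ)) i = _
    simp only [Pi.add_apply, Pi.smul_apply, smul_eq_mul]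
    rw [ins_same]
    ring
  · show _ ≤ ((1 - t) • y + t • (Fin.insertNth i (0 : ℝ) w : Fin (n + 1) → ℝ)) k
    simp only [Pi.add_apply, Pi.smul_apply, smul_eq_mul]
    have h1 : 0 ≤ (Fin.insertNth i (0 : ℝ) w : Fin (n + 1) → ℝ) k := hnn _ hw k
    have h2 := mul_nonneg ht0 h1
    linarith

theorem coneSet_inter_subset {n : ℕ} {M : Set (Fin (n + 1) → ℝ)}
    (hnn : ∀ p ∈ M, ∀ i, 0 ≤ p i) {y : Fin (n + 1) → ℝ} (hy : y ∈ M) (i j : Fin (n + 1)) :
    coneSet M y i ∩ coneSet M y j ⊆ {p : Fin (n + 1) → ℝ | y j * p i - y i * p j = 0} := by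
  rintro p ⟨hpi, hpj⟩
  obtain ⟨t, ht, htk⟩ := coneSet_coords hnn hpi
  obtain ⟨s, hs, hsk⟩ := coneSet_coords hnn hpj
  have h1 := mul_le_mul_of_nonneg_left (htk j) (hnn y hy i)
  have h2 := mul_le_mul_of_nonneg_left (hsk i) (hnn y hy j)
  have e1 : y j * p i = y i * ((1 - t) * y j) := by rw [ht]; ring
  have e2 : y i * p j = y j * ((1 - s) * y i) := by rw [hs]; ring
  show y j * p i - y i * p j = 0
  linarith

theorem hyp_null {n : ℕ} (y : Fin (n + 1) → ℝ) {i j : Fin (n + 1)} (hij : i ≠ j)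
    (hyj : y j ≠ 0) :
    volume {p : Fin (n + 1) → ℝ | y j * p i - y i * p j = 0} = 0 := by
  obtain ⟨L, hL⟩ : ∃ L : (Fin (n + 1) → ℝ) →ₗ[ℝ] ℝ, ∀ p, L p = y j * p i - y i * p j :=
    ⟨y j • LinearMap.proj i - y i • LinearMap.proj j, fun p => by simp⟩
  have hne : LinearMap.ker L ≠ ⊤ := by
    intro h
    have hm : (Pi.single i 1 : Fin (n + 1) → ℝ) ∈ LinearMap.ker L := by
      rw [h]
      trivial
    rw [LinearMap.mem_ker, hL] at hm
    rw [Pi.single_eq_same, Pi.single_eq_of_ne hij.symm] at hm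
    apply hyj
    linarith
  have h0 := Measure.addHaar_submodule (volume : Measure (Fin (n + 1) → ℝ)) (LinearMap.ker L) hne
  refine measure_mono_null ?_ h0
  intro p hp
  show p ∈ LinearMap.ker L
  rw [LinearMap.mem_ker, hL]
  exact hp

theorem lintegral_cone_profile (n : ℕ) (h : ℝ) (hh : 0 < h) :
    ∫⁻ t in Ico (0:ℝ) h, ENNReal.ofReal ((1 - t / h) ^ n) = ENNReal.ofReal (h / (n + 1)) := by
  have hcont : Continuous (fun t : ℝ => (1 - t / h) ^ n) := by fun_prop
  have hint : IntegrableOn (fun t : ℝ => (1 - t / h) ^ n) (Ico (0:ℝ) h) :=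
    (hcont.integrableOn_Icc).mono_set Ico_subset_Icc_self
  have hnn : 0 ≤ᵐ[volume.restrict (Ico (0:ℝ) h)] (fun t : ℝ => (1 - t / h) ^ n) := by
    refine (ae_restrict_iff' measurableSet_Ico).mpr (Filter.Eventually.of_forall fun t ht => ?_)
    have h1 : t / h ≤ 1 := (div_le_one hh).mpr ht.2.le
    exact pow_nonneg (by linarith) n
  rw [← ofReal_integral_eq_lintegral_ofReal hint hnn]
  congr 1
  rw [integral_Ico_eq_integral_Ioc, ← intervalIntegral.integral_of_le hh.le]
  have hderiv : ∀ x ∈ uIcc (0:ℝ) h,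
      HasDerivAt (fun t : ℝ => -(h / (n + 1)) * (1 - t / h) ^ (n + 1)) ((1 - x / h) ^ n) x := by
    intro x _
    have h1 : HasDerivAt (fun t : ℝ => 1 - t / h) (-(1 / h)) x := by
      have h0 := ((hasDerivAt_id x).div_const h).const_sub 1
      simpa using h0
    have h2 : HasDerivAt (fun t : ℝ => -(h / (n + 1)) * (1 - t / h) ^ (n + 1))
        (-(h / (n + 1)) * (((n + 1 : ℕ) : ℝ) * (1 - x / h) ^ (n + 1 - 1) * -(1 / h))) x :=
      (h1.pow (n + 1)).const_mul (-(h / (n + 1)))
    refine h2.congr_deriv ?_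
    have hn : (n : ℝ) + 1 ≠ 0 := by positivity
    rw [Nat.add_sub_cancel]
    push_cast
    field_simp
  rw [intervalIntegral.integral_eq_sub_of_hasDerivAt hderiv (hcont.intervalIntegrable _ _)]
  have h0 : (1 - h / h) = 0 := by rw [div_self hh.ne', sub_self]
  rw [h0]
  simp

theorem coneSet_vol_ge {n : ℕ} {M : Set (Fin (n + 1) → ℝ)} (hcomp : IsCompact M)
    (y : Fin (n + 1) → ℝ) (i : Fin (n + 1)) (hyi : 0 < y i) :
    ENNReal.ofReal (y i / (n + 1)) * volume (sec M i) ≤ volume (coneSet M y i) := by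
  have hmeas : MeasurableSet (coneSet M y i) :=
    (isCompact_coneSet hcomp y i).isClosed.measurableSet
  have hvol : volume (coneSet M y i) = (volume.prod volume)
      ((MeasurableEquiv.piFinSuccAbove (fun _ => ℝ) i).symm ⁻¹' coneSet M y i) := by
    have h := (volume_preserving_piFinSuccAbove (fun _ => ℝ) i).measure_preimage_equiv
      ((MeasurableEquiv.piFinSuccAbove (fun _ => ℝ) i).symm ⁻¹' coneSet M y i)
    rw [← Measure.volume_eq_prod, ← h]
    congr 1
    ext p
    simp
  have hmeas' : MeasurableSet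
      ((MeasurableEquiv.piFinSuccAbove (fun _ => ℝ) i).symm ⁻¹' coneSet M y i) :=
    (MeasurableEquiv.piFinSuccAbove (fun _ => ℝ) i).symm.measurable hmeas
  rw [hvol, Measure.prod_apply hmeas']
  have hsec : ∀ s ∈ Ico (0:ℝ) (y i), ENNReal.ofReal ((1 - s / y i) ^ n) * volume (sec M i) ≤
      volume (Prod.mk s ⁻¹'
        ((MeasurableEquiv.piFinSuccAbove (fun _ => ℝ) i).symm ⁻¹' coneSet M y i)) := by
    intro s hs
    have hr0 : 0 ≤ s / y i := div_nonneg hs.1 hyi.le
    have hr1 : s / y i < 1 := (div_lt_one hyi).mpr hs.2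
    have hsub : AffineMap.homothety (fun j : Fin n => y (i.succAbove j)) (1 - s / y i) ''
        sec M i ⊆ Prod.mk s ⁻¹'
          ((MeasurableEquiv.piFinSuccAbove (fun _ => ℝ) i).symm ⁻¹' coneSet M y i) := by
      rintro _ ⟨w, hw, rfl⟩
      show (MeasurableEquiv.piFinSuccAbove (fun _ => ℝ) i).symm
        (s, AffineMap.homothety (fun j : Fin n => y (i.succAbove j)) (1 - s / y i) w) ∈
          coneSet M y i
      refine ⟨(1 - s / y i, w), ⟨⟨by linarith, by linarith⟩, hw⟩, ?_⟩
      have hall : ∀ k, ((1 - (1 - s / y i)) • y +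
          (1 - s / y i) • (Fin.insertNth i (0 : ℝ) w : Fin (n + 1) → ℝ)) k =
          (MeasurableEquiv.piFinSuccAbove (fun _ => ℝ) i).symm
            (s, AffineMap.homothety (fun j : Fin n => y (i.succAbove j)) (1 - s / y i) w) k := by
        rw [i.forall_iff_succAbove]
        refine ⟨?_, fun j => ?_⟩
        · simp only [Pi.add_apply, Pi.smul_apply, smul_eq_mul,
            MeasurableEquiv.piFinSuccAbove_symm_apply, Fin.insertNthEquiv_apply]
          rw [ins_same, ins_same]
          field_simp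
          ring
        · simp only [Pi.add_apply, Pi.smul_apply, smul_eq_mul,
            MeasurableEquiv.piFinSuccAbove_symm_apply, Fin.insertNthEquiv_apply]
          rw [ins_succ, ins_succ]
          simp only [AffineMap.homothety_apply, vsub_eq_sub, vadd_eq_add, Pi.add_apply,
            Pi.smul_apply, Pi.sub_apply, smul_eq_mul]
          ring
      exact funext hall
    calc ENNReal.ofReal ((1 - s / y i) ^ n) * volume (sec M i)
        = volume (AffineMap.homothety (fun j : Fin n => y (i.succAbove j)) (1 - s / y i) ''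
            sec M i) := by
          rw [Measure.addHaar_image_homothety, Module.finrank_fin_fun,
            abs_of_nonneg (pow_nonneg (by linarith) n)]
      _ ≤ _ := measure_mono hsub
  have hmf : Measurable (fun s : ℝ => ENNReal.ofReal ((1 - s / y i) ^ n)) := by fun_prop
  calc ENNReal.ofReal (y i / (n + 1)) * volume (sec M i)
      = (∫⁻ s in Ico (0:ℝ) (y i), ENNReal.ofReal ((1 - s / y i) ^ n)) * volume (sec M i) := by
        rw [lintegral_cone_profile n (y i) hyi]
    _ = ∫⁻ s in Ico (0:ℝ) (y i), ENNReal.ofReal ((1 - s / y i) ^ n) * volume (sec M i) := by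
        rw [lintegral_mul_const _ hmf]
    _ ≤ ∫⁻ s in Ico (0:ℝ) (y i), volume (Prod.mk s ⁻¹'
          ((MeasurableEquiv.piFinSuccAbove (fun _ => ℝ) i).symm ⁻¹' coneSet M y i)) :=
        setLIntegral_mono' measurableSet_Ico hsec
    _ ≤ ∫⁻ s, volume (Prod.mk s ⁻¹'
          ((MeasurableEquiv.piFinSuccAbove (fun _ => ℝ) i).symm ⁻¹' coneSet M y i)) :=
        setLIntegral_le_lintegral _ _

theorem cone_ineq_convex (n : ℕ) (M : Set (Fin (n + 1) → ℝ)) (hcomp : IsCompact M)
    (hconv : Convex ℝ M) (hnn : ∀ p ∈ M, ∀ i, 0 ≤ p i) (y : Fin (n + 1) → ℝ) (hy : y ∈ M) :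
    ∑ i, ENNReal.ofReal (y i) * volume (sec M i) ≤ ((n : ENNReal) + 1) * volume M := by
  classical
  obtain ⟨S, hS⟩ : ∃ S : Finset (Fin (n + 1)), ∀ i, i ∈ S ↔ 0 < y i :=
    ⟨Finset.univ.filter (fun i => 0 < y i), fun i => by simp⟩
  have hterm : ∀ i ∈ S, ENNReal.ofReal (y i) * volume (sec M i) ≤
      ((n : ENNReal) + 1) * volume (coneSet M y i) := by
    intro i hi
    have hyi : 0 < y i := (hS i).mp hi
    have h := coneSet_vol_ge hcomp y i hyi
    have e : ENNReal.ofReal (y i) = ((n : ENNReal) + 1) * ENNReal.ofReal (y i / (n + 1)) := by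
      have hn : (0:ℝ) < (n:ℝ) + 1 := by positivity
      have h1 : ((n : ENNReal) + 1) = ENNReal.ofReal ((n : ℝ) + 1) := by
        rw [ENNReal.ofReal_add (Nat.cast_nonneg n) zero_le_one, ENNReal.ofReal_natCast,
          ENNReal.ofReal_one]
      rw [h1, ← ENNReal.ofReal_mul hn.le]
      congr 1
      field_simp
    rw [e, mul_assoc]
    gcongr
  have hzero : ∀ i ∉ S, ENNReal.ofReal (y i) * volume (sec M i) = 0 := by
    intro i hi
    have h0 : y i ≤ 0 := by
      by_contra h
      exact hi ((hS i).mpr (not_le.mp h))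
    rw [ENNReal.ofReal_of_nonpos h0, zero_mul]
  have hdisj : Set.Pairwise (↑S) (Function.onFun (AEDisjoint volume) (coneSet M y)) := by
    intro i _ j hj hij
    have hyj : 0 < y j := (hS j).mp (Finset.mem_coe.mp hj)
    show volume (coneSet M y i ∩ coneSet M y j) = 0
    exact measure_mono_null (coneSet_inter_subset hnn hy i j) (hyp_null y hij hyj.ne')
  have hunion : volume (⋃ i ∈ S, coneSet M y i) = ∑ i ∈ S, volume (coneSet M y i) :=
    measure_biUnion_finset₀ hdisj
      (fun i _ => (isCompact_coneSet hcomp y i).isClosed.measurableSet.nullMeasurableSet)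
  have hsub : (⋃ i ∈ S, coneSet M y i) ⊆ M :=
    Set.iUnion₂_subset (fun i _ => coneSet_subset hconv hy i)
  calc ∑ i, ENNReal.ofReal (y i) * volume (sec M i)
      = ∑ i ∈ S, ENNReal.ofReal (y i) * volume (sec M i) := by
        symm
        apply Finset.sum_subset (Finset.subset_univ S)
        intro i _ hi
        exact hzero i hi
    _ ≤ ∑ i ∈ S, ((n : ENNReal) + 1) * volume (coneSet M y i) := Finset.sum_le_sum hterm
    _ = ((n : ENNReal) + 1) * volume (⋃ i ∈ S, coneSet M y i) := by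
        rw [hunion, Finset.mul_sum]
    _ ≤ ((n : ENNReal) + 1) * volume M := by
        gcongr

end Vale.Agent.Lib.P248.H56Q
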